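import Vale.Agent.P131.H856.Dense

namespace Vale.Agent.Results.P131.QuasinilpotentDense

universe u

/-- `T` is nonscalar: it is not a scalar multiple of the identity. -/
def Nonscalar {H : Type u} [NormedAddCommGroup H] [InnerProductSpace ℂ H] (T : H →L[ℂ] H) : Prop :=
  ∀ z : ℂ, T ≠ z • ContinuousLinearMap.id ℂ H

/-- The commutant of `T`: all bounded operators commuting with `T`. -/
def commutant {H : Type u} [NormedAddCommGroup H] [InnerProductSpace ℂ H] (T : H →L[ℂ] H) :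
    Set (H →L[ℂ] H) :=
  {A | A ∘L T = T ∘L A}

/-- `M` is a closed subspace invariant under the commutant of `T`. -/
def Hyperinvariant {H : Type u} [NormedAddCommGroup H] [InnerProductSpace ℂ H] (T : H →L[ℂ] H)
    (M : Submodule ℂ H) : Prop :=
  IsClosed (M : Set H) ∧ ∀ A ∈ commutant T, ∀ x ∈ M, A x ∈ M

/-- The only closed subspaces invariant under every member of `S` are `0` and `H`. -/
def Transitive {H : Type u} [NormedAddCommGroup H] [InnerProductSpace ℂ H]
    (S : Set (H →L[ℂ] H)) : Prop :=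
  ∀ M : Submodule ℂ H, IsClosed (M : Set H) → (∀ A ∈ S, ∀ x ∈ M, A x ∈ M) → M = ⊥ ∨ M = ⊤

/-- `T` is nonscalar and has no hyperinvariant subspace besides `0` and `H`. -/
def NoHyperinvariant {H : Type u} [NormedAddCommGroup H] [InnerProductSpace ℂ H]
    (T : H →L[ℂ] H) : Prop :=
  Nonscalar T ∧ Transitive (commutant T) ∧
    ¬ ∃ M : Submodule ℂ H, Hyperinvariant T M ∧ M ≠ ⊥ ∧ M ≠ ⊤

/-- On every separable infinite-dimensional complex Hilbert space there are nonscalar operators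
without nontrivial hyperinvariant subspace; the quasinilpotent ones among them are dense in `B(H)`
in the strong operator topology, and so is the similarity orbit of each of them. -/
theorem result (H : Type u) [NormedAddCommGroup H] [InnerProductSpace ℂ H] [CompleteSpace H]
    [TopologicalSpace.SeparableSpace H] (hH : ¬ FiniteDimensional ℂ H) :
    (∃ T : H →L[ℂ] H, NoHyperinvariant T) ∧
    (∀ (A : H →L[ℂ] H) (F : Finset H) (ε : ℝ), 0 < ε →
      ∃ T : H →L[ℂ] H, NoHyperinvariant T ∧ spectrum ℂ T = {0} ∧ ∀ x ∈ F, ‖T x - A x‖ < ε) ∧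
    (∀ T : H →L[ℂ] H, NoHyperinvariant T → ∀ (A : H →L[ℂ] H) (F : Finset H) (ε : ℝ), 0 < ε →
      ∃ S : H ≃L[ℂ] H, ∀ x ∈ F, ‖S (T (S.symm x)) - A x‖ < ε) := by
  have key : ∀ T : H →L[ℂ] H, Vale.Agent.P131.H856.TC T → NoHyperinvariant T := by
    rintro T ⟨h1, h2⟩
    refine ⟨h1, fun M hM hA => h2 M hM hA, ?_⟩
    rintro ⟨M, ⟨hM, hA⟩, h3, h4⟩
    rcases h2 M hM hA with h | h
    · exact h3 h
    · exact h4 h
  refine ⟨?_, fun A F ε hε => ?_, fun T hT A F ε hε => ?_⟩
  · obtain ⟨T, h1, -⟩ := Vale.Agent.P131.H856.exists_tc_qn H hH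
    exact ⟨T, key T h1⟩
  · obtain ⟨T, h1, h2, h3⟩ := Vale.Agent.P131.H856.dense_tc_qn H hH A F hε
    exact ⟨T, key T h1, h2, h3⟩
  · obtain ⟨S, hS⟩ := Vale.Agent.P131.H856.orbit_dense hH
      (T₀ := T) ⟨hT.1, fun M hM hA => hT.2.1 M hM hA⟩ A F hε
    exact ⟨S, hS⟩

end Vale.Agent.Results.P131.QuasinilpotentDense
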