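import Vale.Agent.P131.H97.Kad

namespace Vale.Agent.Results.P131.UniversalQuasinilpotent

universe u

/-- `T` is nonscalar: it is not a scalar multiple of the identity. -/
def Nonscalar {H : Type u} [NormedAddCommGroup H] [InnerProductSpace ℂ H] (T : H →L[ℂ] H) : Prop :=
  ∀ z : ℂ, T ≠ z • ContinuousLinearMap.id ℂ H

/-- The commutant of `T`: all bounded operators commuting with `T`. -/
def commutant {H : Type u} [NormedAddCommGroup H] [InnerProductSpace ℂ H] (T : H →L[ℂ] H) :
    Set (H →L[ℂ] H) :=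
  {A | A ∘L T = T ∘L A}

/-- `M` is a closed subspace invariant under the commutant of `T`. -/
def Hyperinvariant {H : Type u} [NormedAddCommGroup H] [InnerProductSpace ℂ H] (T : H →L[ℂ] H)
    (M : Submodule ℂ H) : Prop :=
  IsClosed (M : Set H) ∧ ∀ A ∈ commutant T, ∀ x ∈ M, A x ∈ M

/-- The only closed subspaces invariant under every member of `S` are `0` and `H`. -/
def Transitive {H : Type u} [NormedAddCommGroup H] [InnerProductSpace ℂ H]
    (S : Set (H →L[ℂ] H)) : Prop :=
  ∀ M : Submodule ℂ H, IsClosed (M : Set H) → (∀ A ∈ S, ∀ x ∈ M, A x ∈ M) → M = ⊥ ∨ M = ⊤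

/-- `T` is nonscalar and has no hyperinvariant subspace besides `0` and `H`. -/
def NoHyperinvariant {H : Type u} [NormedAddCommGroup H] [InnerProductSpace ℂ H]
    (T : H →L[ℂ] H) : Prop :=
  Nonscalar T ∧ Transitive (commutant T) ∧
    ¬ ∃ M : Submodule ℂ H, Hyperinvariant T M ∧ M ≠ ⊥ ∧ M ≠ ⊤

/-- Let `H` be a complex Hilbert space of infinite dimension, separable or not. (1) If `H` is
separable there is a nonscalar operator without nontrivial hyperinvariant subspace. (2) There is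
such an operator with spectrum `{0}` whose similarity orbit is norm dense in the set of all
operators with spectrum `{0}`. (3) An operator with countable spectrum is a norm limit of operators
without nontrivial hyperinvariant subspace exactly if its spectrum is one point. (4) There is a
transitive subalgebra of `B(H)`, closed in the weak operator topology, which is not `B(H)`. -/
theorem result (H : Type u) [NormedAddCommGroup H] [InnerProductSpace ℂ H] [CompleteSpace H]
    (hH : ¬ FiniteDimensional ℂ H) :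
    (TopologicalSpace.SeparableSpace H → ∃ T : H →L[ℂ] H, NoHyperinvariant T) ∧
    (∃ T : H →L[ℂ] H, NoHyperinvariant T ∧ spectrum ℂ T = {0} ∧
      ∀ Q : H →L[ℂ] H, spectrum ℂ Q = {0} → ∀ ε : ℝ, 0 < ε →
        ∃ S : H ≃L[ℂ] H, ‖(S : H →L[ℂ] H) ∘L T ∘L (S.symm : H →L[ℂ] H) - Q‖ < ε) ∧
    (∀ A : H →L[ℂ] H, (spectrum ℂ A).Countable →
      (A ∈ closure {T : H →L[ℂ] H | NoHyperinvariant T} ↔ ∃ z : ℂ, spectrum ℂ A = {z})) ∧
    (∃ 𝒜 : Subalgebra ℂ (H →L[ℂ] H), 𝒜 ≠ ⊤ ∧ Transitive (𝒜 : Set (H →L[ℂ] H)) ∧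
      IsClosed {A : H →WOT[ℂ] H | A.toCLM ∈ 𝒜}) := by
  have key : ∀ {T : H →L[ℂ] H}, Vale.Agent.P131.H856.TC T → NoHyperinvariant T := by
    rintro T ⟨h1, h2⟩
    refine ⟨h1, fun M hM hA => h2 M hM hA, ?_⟩
    rintro ⟨M, ⟨hM, hA⟩, h3, h4⟩
    rcases h2 M hM hA with h | h
    · exact h3 h
    · exact h4 h
  have key' : ∀ {T : H →L[ℂ] H}, NoHyperinvariant T → Vale.Agent.P131.H856.TC T := fun h =>
    ⟨h.1, fun M hM hA => h.2.1 M hM hA⟩
  have hnt : Nontrivial H := by
    by_contra hcon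
    rw [not_nontrivial_iff_subsingleton] at hcon
    exact hH inferInstance
  obtain ⟨T, h1, h2, h3⟩ := Vale.Agent.P131.H97.universal_all H hH
  refine ⟨fun _ => ⟨T, key h1⟩, ⟨T, key h1, h2.spectrum_eq, fun Q hQ ε hε => ?_⟩,
    fun A hA => ?_, ⟨Subalgebra.centralizer ℂ {T}, Vale.Agent.P131.H97.centralizer_ne_top h1,
      fun M hM hA => h1.2 M hM fun A hAT => hA A (Vale.Agent.P131.H97.mem_centralizer.2 hAT),
      Vale.Agent.P131.H97.isClosed_centralizer T⟩⟩
  · obtain ⟨S, hS⟩ := h3 Q (Vale.Agent.P131.H97.qn_of_spectrum hQ) (ε / 2) (half_pos hε)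
    exact ⟨S, lt_of_le_of_lt hS (half_lt_self hε)⟩
  · have h4 : {T : H →L[ℂ] H | NoHyperinvariant T} =
        {T : H →L[ℂ] H | Vale.Agent.P131.H856.TC T} :=
      Set.ext fun T => ⟨key', key⟩
    rw [h4]
    exact Vale.Agent.P131.H97.closure_iff hH hA

end Vale.Agent.Results.P131.UniversalQuasinilpotent
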